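import Vale.Agent.P194.Main

/-!
Stable finiteness of group algebras, reductions.

(1) For a field extension `K / F` and a group `G`: `F[G]` is stably finite iff `K[G]` is.
(2) `K[G]` is stably finite iff `K[G × Γ]` is directly finite for every finite group `Γ`.
(3) If `F_p[H]` is directly finite for all groups `H`, then `K[G]` is stably finite for all
groups `G` and all fields `K` of characteristic `p`.
-/

namespace Vale.Agent.Results.P194.StableFromDirect

universe u v w

theorem result :
    (∀ (F : Type u) (K : Type v) [Field F] [Field K] [Algebra F K] (G : Type w) [Group G],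
      IsStablyFiniteRing (MonoidAlgebra F G) ↔ IsStablyFiniteRing (MonoidAlgebra K G)) ∧
    (∀ (K : Type u) [Field K] (G : Type w) [Group G],
      IsStablyFiniteRing (MonoidAlgebra K G) ↔
        ∀ (Γ : Type) [Group Γ] [Finite Γ], IsDedekindFiniteMonoid (MonoidAlgebra K (G × Γ))) ∧
    (∀ (p : ℕ) [Fact p.Prime],
      (∀ (H : Type w) [Group H], IsDedekindFiniteMonoid (MonoidAlgebra (ZMod p) H)) →
        ∀ (K : Type u) [Field K] [CharP K p] (G : Type w) [Group G],
          IsStablyFiniteRing (MonoidAlgebra K G)) :=
  ⟨fun F K _ _ _ G _ => Vale.Agent.P194.stablyFinite_iff_of_algebra F K G,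
   fun K _ G _ => Vale.Agent.P194.stablyFinite_iff_prod K G,
   fun p _ hyp K _ _ G _ => Vale.Agent.P194.stablyFinite_of_prime_field p hyp K G⟩

end Vale.Agent.Results.P194.StableFromDirect
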